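import Vale.Agent.P032.Words6.H122.Lists
import Vale.Agent.P032.Words6.H227.Dats
import Vale.Agent.P032.Words.H670.S13
import Vale.Agent.P032.Words.H670.S17
import Vale.Agent.P032.Words.H670.S26
import Vale.Agent.P032.Words6.H358.TreeD

/-!
# P032: the thirty-five graphs on six colours without cut: every list of letters has a tree of tables
-/

namespace Vale.Agent.P032.Words6.H122

open Vale.Agent.P032.Words.Trie Vale.Agent.P032.Words6.H46 Vale.Agent.P032.Words6.H227
  Vale.Agent.P032.Words6.H358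

theorem lets1 : TreeOK [3, 12, 48] :=
  treeOK_of_tab tab1 ok1 (by decide +kernel)

theorem lets2 : TreeOK [3, 5, 9, 48] :=
  treeOK_of_tab tab2 ok2 (by decide +kernel)

theorem lets3 : TreeOK [3, 5, 10, 48] :=
  treeOK_of_tab tab3 ok3 (by decide +kernel)

theorem lets4 : TreeOK [3, 5, 24, 40] :=
  treeOK_of_tab tab4 ok4 (by decide +kernel)

theorem lets5 : TreeOK [3, 5, 9, 6, 48] :=
  treeOK_of_tab tab5 ok5 (by decide +kernel)

theorem lets6 : TreeOK [3, 5, 9, 18, 34] :=
  treeOK_of_tab tab6 ok6 (by decide +kernel)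

theorem lets7 : TreeOK [3, 5, 9, 18, 36] :=
  treeOK_of_tab tab7 ok7 (by decide +kernel)

theorem lets8 : TreeOK [3, 5, 9, 18, 48] :=
  treeOK_of_tab tab8 ok8 (by decide +kernel)

theorem lets9 : TreeOK [3, 5, 6, 24, 40] :=
  treeOK_of_tab tab9 ok9 (by decide +kernel)

theorem lets10 : TreeOK [3, 5, 10, 12, 48] :=
  treeOK_of_tab tab10 ok10 (by decide +kernel)

theorem lets11 : TreeOK [3, 5, 10, 20, 40] :=
  treeOK_of_tab tab11 ok11 (by decide +kernel)

theorem lets12 : TreeOK [3, 5, 9, 6, 10, 48] :=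
  treeOK_of_tab tab12 ok12 (by decide +kernel)

theorem okD13 : okD C13.D = true := by decide +kernel

theorem lets13 : TreeOK [3, 5, 9, 6, 18, 36] :=
  treeOK_of_tab C13.tab okD13 (by decide +kernel)

theorem lets14 : TreeOK [3, 5, 9, 6, 18, 40] :=
  treeOK_of_tab tab14 ok14 (by decide +kernel)

theorem lets15 : TreeOK [3, 5, 9, 6, 24, 40] :=
  treeOK_of_tab tab15 ok15 (by decide +kernel)

theorem lets16 : TreeOK [3, 5, 9, 6, 24, 48] :=
  treeOK_of_tab tab16 ok16 (by decide +kernel)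

theorem okD17 : okD C17.D = true := by decide +kernel

theorem lets17 : TreeOK [3, 5, 9, 18, 34, 20] :=
  treeOK_of_tab C17.tab okD17 (by decide +kernel)

theorem lets18 : TreeOK [3, 5, 9, 18, 20, 40] :=
  treeOK_of_tab tab18 ok18 (by decide +kernel)

theorem lets19 : TreeOK [3, 5, 9, 18, 20, 48] :=
  treeOK_of_tab tab19 ok19 (by decide +kernel)

theorem lets20 : TreeOK [3, 5, 9, 18, 36, 48] :=
  treeOK_of_tab tab20 ok20 (by decide +kernel)

theorem lets21 : TreeOK [3, 5, 6, 24, 40, 48] :=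
  treeOK_of_tab tab21 ok21 (by decide +kernel)

theorem lets23 : TreeOK [3, 5, 9, 6, 10, 12, 48] :=
  treeOK_of_tab tab23 ok23 (by decide +kernel)

theorem lets24 : TreeOK [3, 5, 9, 6, 10, 20, 40] :=
  treeOK_of_tab tab24 ok24 (by decide +kernel)

theorem lets25 : TreeOK [3, 5, 9, 6, 10, 20, 48] :=
  treeOK_of_tab tab25 ok25 (by decide +kernel)

theorem okD26 : okD C26.D = true := by decide +kernel

theorem lets26 : TreeOK [3, 5, 9, 6, 18, 36, 24] :=
  treeOK_of_tab C26.tab okD26 (by decide +kernel)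

theorem lets27 : TreeOK [3, 5, 9, 6, 18, 24, 40] :=
  treeOK_of_tab tab27 ok27 (by decide +kernel)

theorem lets29 : TreeOK [3, 5, 9, 6, 24, 40, 48] :=
  treeOK_of_tab tab29 ok29 (by decide +kernel)

theorem lets31 : TreeOK [3, 5, 9, 18, 20, 40, 48] :=
  treeOK_of_tab tab31 ok31 (by decide +kernel)

theorem all35_of
    (tree22 : TreeOK [3, 5, 10, 20, 40, 48])
    (tree28 : TreeOK [3, 5, 9, 6, 18, 40, 48])
    (tree30 : TreeOK [3, 5, 9, 18, 34, 20, 40])
    (tree32 : TreeOK [3, 5, 9, 6, 10, 20, 40, 48])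
    (tree33 : TreeOK [3, 5, 9, 6, 18, 36, 24, 40])
    (tree34 : TreeOK [3, 5, 9, 6, 18, 24, 40, 48])
    (tree35 : TreeOK [3, 5, 9, 6, 18, 36, 24, 40, 48]) :
    ∀ L ∈ LC.map Prod.fst, TreeOK L := by
  rw [map_LC]
  exact forall35 lets1 lets2 lets3 lets4 lets5 lets6 lets7 lets8
    lets9 lets10 lets11 lets12 lets13 lets14 lets15 lets16
    lets17 lets18 lets19 lets20 lets21 tree22 lets23 lets24
    lets25 lets26 lets27 tree28 lets29 tree30 lets31 tree32
    tree33 tree34 tree35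

end Vale.Agent.P032.Words6.H122
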