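import Vale.Agent.P032.Words6.H122.Class

/-!
# The thirty-five lists of letters, literally
-/

namespace Vale.Agent.P032.Words6.H122

/-- the thirty-five lists of letters -/
def Lets35 : List (List ℕ) := [
  [3, 12, 48],
  [3, 5, 9, 48],
  [3, 5, 10, 48],
  [3, 5, 24, 40],
  [3, 5, 9, 6, 48],
  [3, 5, 9, 18, 34],
  [3, 5, 9, 18, 36],
  [3, 5, 9, 18, 48],
  [3, 5, 6, 24, 40],
  [3, 5, 10, 12, 48],
  [3, 5, 10, 20, 40],
  [3, 5, 9, 6, 10, 48],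
  [3, 5, 9, 6, 18, 36],
  [3, 5, 9, 6, 18, 40],
  [3, 5, 9, 6, 24, 40],
  [3, 5, 9, 6, 24, 48],
  [3, 5, 9, 18, 34, 20],
  [3, 5, 9, 18, 20, 40],
  [3, 5, 9, 18, 20, 48],
  [3, 5, 9, 18, 36, 48],
  [3, 5, 6, 24, 40, 48],
  [3, 5, 10, 20, 40, 48],
  [3, 5, 9, 6, 10, 12, 48],
  [3, 5, 9, 6, 10, 20, 40],
  [3, 5, 9, 6, 10, 20, 48],
  [3, 5, 9, 6, 18, 36, 24],
  [3, 5, 9, 6, 18, 24, 40],
  [3, 5, 9, 6, 18, 40, 48],
  [3, 5, 9, 6, 24, 40, 48],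
  [3, 5, 9, 18, 34, 20, 40],
  [3, 5, 9, 18, 20, 40, 48],
  [3, 5, 9, 6, 10, 20, 40, 48],
  [3, 5, 9, 6, 18, 36, 24, 40],
  [3, 5, 9, 6, 18, 24, 40, 48],
  [3, 5, 9, 6, 18, 36, 24, 40, 48]]

theorem map_LC : LC.map Prod.fst = Lets35 := rfl

/-- **Classification**, with the literal lists. -/
theorem classify35 {M : Fin 6 → Fin 6 → Prop} (hs : ∀ a b, M a b → M b a) (hi : ∀ a, ¬ M a a)
    (hact : ∀ a, ∃ b, M a b) (hdeg : ∀ v u, v ≠ u → ¬ ∀ w, w ≠ v → w ≠ u → M v w)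
    (hcut : ∀ X Y : Set (Fin 6), X.Nonempty → Y.Nonempty → Disjoint X Y → 5 ≤ (X ∪ Y).ncard →
      ¬ ∀ x ∈ X, ∀ y ∈ Y, M x y) :
    ∃ L ∈ Lets35, ∃ f : Fin 6 → ℕ, Function.Injective f ∧ (∀ a, f a < 6) ∧
      ∀ a b, a ≠ b → (M a b ↔ 2 ^ f a ||| 2 ^ f b ∈ L) := by
  rw [← map_LC]
  exact classify hs hi hact hdeg hcut

/-- the thirty-five cases -/
theorem forall35 {Q : List ℕ → Prop}
    (h1 : Q [3, 12, 48])
    (h2 : Q [3, 5, 9, 48])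
    (h3 : Q [3, 5, 10, 48])
    (h4 : Q [3, 5, 24, 40])
    (h5 : Q [3, 5, 9, 6, 48])
    (h6 : Q [3, 5, 9, 18, 34])
    (h7 : Q [3, 5, 9, 18, 36])
    (h8 : Q [3, 5, 9, 18, 48])
    (h9 : Q [3, 5, 6, 24, 40])
    (h10 : Q [3, 5, 10, 12, 48])
    (h11 : Q [3, 5, 10, 20, 40])
    (h12 : Q [3, 5, 9, 6, 10, 48])
    (h13 : Q [3, 5, 9, 6, 18, 36])
    (h14 : Q [3, 5, 9, 6, 18, 40])
    (h15 : Q [3, 5, 9, 6, 24, 40])
    (h16 : Q [3, 5, 9, 6, 24, 48])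
    (h17 : Q [3, 5, 9, 18, 34, 20])
    (h18 : Q [3, 5, 9, 18, 20, 40])
    (h19 : Q [3, 5, 9, 18, 20, 48])
    (h20 : Q [3, 5, 9, 18, 36, 48])
    (h21 : Q [3, 5, 6, 24, 40, 48])
    (h22 : Q [3, 5, 10, 20, 40, 48])
    (h23 : Q [3, 5, 9, 6, 10, 12, 48])
    (h24 : Q [3, 5, 9, 6, 10, 20, 40])
    (h25 : Q [3, 5, 9, 6, 10, 20, 48])
    (h26 : Q [3, 5, 9, 6, 18, 36, 24])
    (h27 : Q [3, 5, 9, 6, 18, 24, 40])
    (h28 : Q [3, 5, 9, 6, 18, 40, 48])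
    (h29 : Q [3, 5, 9, 6, 24, 40, 48])
    (h30 : Q [3, 5, 9, 18, 34, 20, 40])
    (h31 : Q [3, 5, 9, 18, 20, 40, 48])
    (h32 : Q [3, 5, 9, 6, 10, 20, 40, 48])
    (h33 : Q [3, 5, 9, 6, 18, 36, 24, 40])
    (h34 : Q [3, 5, 9, 6, 18, 24, 40, 48])
    (h35 : Q [3, 5, 9, 6, 18, 36, 24, 40, 48]) :
    ∀ L ∈ Lets35, Q L := by
  unfold Lets35
  simp only [List.mem_cons, List.not_mem_nil, or_false]
  rintro L (rfl | rfl | rfl | rfl | rfl | rfl | rfl | rfl | rfl | rfl | rfl | rfl | rfl | rfl |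
    rfl | rfl | rfl | rfl | rfl | rfl | rfl | rfl | rfl | rfl | rfl | rfl | rfl | rfl | rfl | rfl
    | rfl | rfl | rfl | rfl | rfl)
  · exact h1
  · exact h2
  · exact h3
  · exact h4
  · exact h5
  · exact h6
  · exact h7
  · exact h8
  · exact h9
  · exact h10
  · exact h11
  · exact h12
  · exact h13
  · exact h14
  · exact h15
  · exact h16
  · exact h17
  · exact h18
  · exact h19
  · exact h20
  · exact h21
  · exact h22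
  · exact h23
  · exact h24
  · exact h25
  · exact h26
  · exact h27
  · exact h28
  · exact h29
  · exact h30
  · exact h31
  · exact h32
  · exact h33
  · exact h34
  · exact h35

end Vale.Agent.P032.Words6.H122
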